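import Vale.Agent.P354CB.Ez

/-!
NBALL: small balls in a chart.
-/

set_option autoImplicit false
set_option linter.all false

open scoped ContDiff
open Set Filter Topology Metric

namespace Vale.Agent.P354CB28

open Vale.Agent.P354n
open Vale.Agent.P354CB
open Vale.Agent.P354XJ (Tm Cb g_cont)

/-- A causal vector which is orthogonal to a timelike vector vanishes. -/
theorem mink_zero {a t : R4} (h1 : mink a a ≤ 0) (h2 : mink t t < 0) (h3 : mink a t = 0) :
    a = 0 := by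
  obtain ⟨a0, a1, a2, a3⟩ := a
  obtain ⟨t0, t1, t2, t3⟩ := t
  simp only [mink, cu, cv, c1, c2] at h1 h2 h3
  have e : a0 * t0 = a1 * t1 + a2 * t2 + a3 * t3 := by linarith
  have cs : (a1 * t1 + a2 * t2 + a3 * t3) ^ 2 ≤
      (a1 * a1 + a2 * a2 + a3 * a3) * (t1 * t1 + t2 * t2 + t3 * t3) := by
    nlinarith [sq_nonneg (a1 * t2 - a2 * t1), sq_nonneg (a1 * t3 - a3 * t1),
      sq_nonneg (a2 * t3 - a3 * t2)]
  have n : 0 ≤ t1 * t1 + t2 * t2 + t3 * t3 := by
    nlinarith [mul_self_nonneg t1, mul_self_nonneg t2, mul_self_nonneg t3]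
  have k : (a1 * a1 + a2 * a2 + a3 * a3) * (t1 * t1 + t2 * t2 + t3 * t3) ≤
      a0 * a0 * (t1 * t1 + t2 * t2 + t3 * t3) := mul_le_mul_of_nonneg_right (by linarith) n
  have z : a0 * a0 ≤ 0 := by
    by_contra! p
    have := mul_lt_mul_of_pos_left (show t1 * t1 + t2 * t2 + t3 * t3 < t0 * t0 by linarith) p
    rw [← e] at cs
    nlinarith
  have s1 := mul_self_nonneg a0
  have s2 := mul_self_nonneg a1
  have s3 := mul_self_nonneg a2
  have s4 := mul_self_nonneg a3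
  have z0 : a0 = 0 := mul_self_eq_zero.1 (by linarith)
  have z1 : a1 = 0 := mul_self_eq_zero.1 (by linarith)
  have z2 : a2 = 0 := mul_self_eq_zero.1 (by linarith)
  have z3 : a3 = 0 := mul_self_eq_zero.1 (by linarith)
  rw [z0, z1, z2, z3]
  rfl

/-- Nonzero future causal vectors have a negative product with the time orientation. -/
theorem neg_X {M : Spc} (h : St M) {e : M.Chart} {p a : R4} (hp : p ∈ tgt e) (a0 : a ≠ 0)
    (h1 : M.g e p a a ≤ 0) (h2 : M.g e p a (M.X e p) ≤ 0) : M.g e p a (M.X e p) < 0 := by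
  refine lt_of_le_of_ne h2 fun z => a0 ?_
  obtain ⟨L, l, i, k⟩ := h.sp.signature e p hp
  have t := h.sp.timelike e p hp
  rw [k] at h1 z t
  exact i ((mink_zero h1 t z).trans l.map_zero.symm)

/-- **NBALL.** -/
theorem nball : NBALL := by
  intro M h e p hp
  have lo := h.lor e
  obtain ⟨k, r⟩ := P354RC.rp_of_met lo.isOpen lo.met
  set T := M.X e p with hT
  have nb := lo.isOpen.mem_nhds hp
  obtain ⟨K, t, ht, hK⟩ := ((r.sm.contDiffAt nb).of_le (show (1 : WithTop ℕ∞) ≤ ∞ by simp)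
    ).exists_lipschitzOnWith
  let τ : R4 →L[ℝ] ℝ := -(k p T)
  have eτ : ∀ w, τ w = -M.g e p w T := fun w => by
    rw [lo.met.symm p hp, r.eq p hp]
    rfl
  have tm : Tm e τ p := ⟨τ.contDiff.contDiffAt, fun w w0 a b => by
    rw [τ.fderiv, eτ]
    exact neg_pos.2 (neg_X h hp w0 a b)⟩
  obtain ⟨C, C0, hC⟩ := tm.cb h.sp hp
  have c1 : ContinuousAt (fun z => M.g e z T T) p :=
    g_cont h.sp hp continuousAt_id continuousAt_const continuousAt_const
  have c2 : ContinuousAt (fun z => M.g e z T (M.X e z)) p :=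
    g_cont h.sp hp continuousAt_id continuousAt_const (lo.cont.continuousAt nb)
  have c3 : ContinuousAt (fun z : R4 => (K : ℝ) * ‖p - z‖ * ‖T‖) p := by fun_prop
  have tl := lo.tl p hp
  have C1 : 0 < (2 * C)⁻¹ := by positivity
  obtain ⟨ρ, ρ0, hρ⟩ := nhds_basis_closedBall.eventually_iff.1
    (((show ∀ᶠ z in 𝓝 p, z ∈ tgt e from nb).and (show ∀ᶠ z in 𝓝 p, z ∈ t from ht)).and
      ((hC.and (c3.eventually_lt_const (by simpa using C1 : (K : ℝ) * ‖p - p‖ * ‖T‖ < (2 * C)⁻¹))).and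
        ((c1.eventually_lt_const tl).and (c2.eventually_lt_const tl))))
  have lip : ∀ z ∈ closedBall p ρ, ∀ z' ∈ closedBall p ρ, ∀ a b,
      |M.g e z a b - M.g e z' a b| ≤ K * ‖z - z'‖ * ‖a‖ * ‖b‖ := fun z m z' m' a b => by
    have := hK.dist_le_mul z (hρ m).1.2 z' (hρ m').1.2
    rw [dist_eq_norm, dist_eq_norm] at this
    rw [r.eq z (hρ m).1.1, r.eq z' (hρ m').1.1]
    calc |k z a b - k z' a b| = ‖(k z - k z') a b‖ := by simp
      _ ≤ ‖k z - k z'‖ * ‖a‖ * ‖b‖ := (k z - k z').le_opNorm₂ a b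
      _ ≤ _ := by gcongr
  refine ⟨ρ, K, (2 * C)⁻¹, ρ0, C1, K.2, fun z m => (hρ m).1.1, fun z m => (hρ m).2.2,
    fun z m z' m' a a1 a2 => ?_, lip⟩
  have b1 := (hρ m).2.1.1 a a1 a2
  rw [τ.fderiv, eτ] at b1
  have b2 := (abs_le.1 (lip p (mem_closedBall_self ρ0.le) z' m' a T)).1
  have b3 := mul_le_mul_of_nonneg_right (hρ m').2.1.2.le (norm_nonneg a)
  have b4 : 2 * ((2 * C)⁻¹ * ‖a‖) ≤ -M.g e p a T := by
    rw [← mul_assoc, mul_inv, ← mul_assoc, mul_inv_cancel₀ two_ne_zero, one_mul,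
      inv_mul_le_iff₀ C0]
    exact b1
  nlinarith

end Vale.Agent.P354CB28
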